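import Vale.Agent.P144U.Defs
import Vale.Agent.P144E.Ge2.Conn

/-!
The outside of a dug tip, for a shifted square.
-/

namespace Vale.Agent.P144Z

open GeoA Ge2

namespace RgZ

/-- The set `O` is thick and locally connected. -/
def Gd (O : ℤ × ℤ → Prop) (N : ℕ) : Prop :=
  (∀ (f : ℤ × ℤ) (s : ℕ), O f → ∃ x, zd x f ≤ N * (s + 1) ∧ ∀ g, zd g x ≤ s → O g) ∧
    ∀ (y f f' : ℤ × ℤ) (s : ℕ), zd f y ≤ s → zd f' y ≤ s → O f → O f' →
      Rch (fun v => O v ∧ zd v y ≤ N * (s + 1)) f f'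

/-- A square is added. -/
theorem Gd.square {O O' : ℤ × ℤ → Prop} {N N' t : ℕ} {c p : ℤ × ℤ} (h : Gd O' N')
    (hN : N' * (2 * t + 1) + 2 * t + 1 ≤ N) (h1 : ∀ v, O' v → O v) (h2 : ∀ v, zd v c ≤ t → O v)
    (h3 : ∀ v, O v → O' v ∨ zd v c ≤ t) (p1 : O' p) (p2 : zd p c ≤ t) : Gd O N := by
  have base : ∀ f, O f → ∃ g, O' g ∧ zd g f ≤ 2 * t ∧ Rch (fun x => O x ∧ zd x f ≤ 2 * t) f g := by
    intro f hf
    rcases h3 f hf with k | k
    · exact ⟨f, k, by simp [zd], Relation.ReflTransGen.refl⟩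
    · have e : ∀ x, zd x c ≤ t → O x ∧ zd x f ≤ 2 * t := fun x hx => by
        have := zd_tri x c f
        rw [zd_comm c] at this
        exact ⟨h2 x hx, by omega⟩
      exact ⟨p, p1, (e p p2).2, (rch_box e k).trans (rch_box e p2).symm⟩
  have b : ∀ s : ℕ, N' * (s + 2 * t + 1) + s + 2 * t ≤ N * (s + 1) := fun s =>
    le_trans (by nlinarith [Nat.zero_le (N' * t * s), Nat.zero_le (t * s)])
      (Nat.mul_le_mul_right _ hN)
  refine ⟨fun f s hf => ?_, fun y f f' s hf hf' k k' => ?_⟩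
  · obtain ⟨g, g1, g2, -⟩ := base f hf
    obtain ⟨x, x1, x2⟩ := h.1 g s g1
    refine ⟨x, ?_, fun u hu => h1 u (x2 u hu)⟩
    have := zd_tri x g f
    have := b s
    have := Nat.mul_le_mul_left N' (show s + 1 ≤ s + 2 * t + 1 by omega)
    omega
  · have key : ∀ f, zd f y ≤ s → O f → ∃ g, O' g ∧ zd g y ≤ s + 2 * t ∧
        Rch (fun v => O v ∧ zd v y ≤ N * (s + 1)) f g := fun f hf k => by
      obtain ⟨g, g1, g2, g3⟩ := base f k
      have := zd_tri g f y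
      refine ⟨g, g1, by omega, rch_mono (fun x hx => ⟨hx.1, ?_⟩) g3⟩
      have := zd_tri x f y
      have := hx.2
      have := b s
      omega
    obtain ⟨g, g1, g2, g3⟩ := key f hf k
    obtain ⟨g', g4, g5, g6⟩ := key f' hf' k'
    refine (g3.trans (rch_mono (fun x hx => ⟨h1 x hx.1, ?_⟩) (h.2 y g g' _ g2 g5 g1 g4))).trans
      g6.symm
    have := hx.2
    have := b s
    omega

variable {S₁ S₂ : Set (ℤ × ℤ)} {ν₁ ν₂ : ℂ} {α κ : ℝ}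

/-- The outside of a convex corner. -/
theorem gd_and (h : TipS S₁ S₂ ν₁ ν₂ α κ) (hα : 0 < α) (h0 : 0 ≤ κ) (h2 : κ ≤ α / 16) {j : ℕ}
    (hj : 328 ≤ α * j) : Gd (fun v => ¬ (v ∈ S₁ ∧ v ∈ S₂)) (j + 40) := by
  have h1 : κ ≤ 1 / 8 := by linarith [h.le_two]
  obtain ⟨a, b, ha, hb, m1, m2⟩ := exists_mu h.n₁ h.n₂ hα h.add
  have key : ∀ (f : ℤ × ℤ) (s : ℕ), ¬ (f ∈ S₁ ∧ f ∈ S₂) → ∃ e : ℤ × ℤ,
      e.1.natAbs + e.2.natAbs ≤ 1 ∧ Rch (fun v => ¬ (v ∈ S₁ ∧ v ∈ S₂) ∧ zd v f ≤ j * (s + 1) + 13) f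
        (ray f e a b (j * (s + 1))) ∧
      ∀ x, zd x (ray f e a b (j * (s + 1))) ≤ 2 * s + 24 → ¬ (x ∈ S₁ ∧ x ∈ S₂) := by
    intro f s hf
    obtain ⟨S, ν, n1, n2, n3, n4, n5⟩ : ∃ (S : Set (ℤ × ℤ)) (ν : ℂ), ‖ν‖ = 1 ∧ Epi S ν κ ∧
        α / 2 ≤ a * ν.re + b * ν.im ∧ f ∉ S ∧ ∀ v, v ∉ S → ¬ (v ∈ S₁ ∧ v ∈ S₂) := by
      by_cases k : f ∈ S₁
      · exact ⟨S₂, ν₂, h.n₂, h.e₂, m2, fun o => hf ⟨k, o⟩, fun v o o' => o o'.2⟩
      · exact ⟨S₁, ν₁, h.n₁, h.e₁, m1, k, fun v o o' => o o'.1⟩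
    obtain ⟨e, he, he'⟩ := exists_best n1
    refine ⟨e, unit_le he, rch_ray n2 n1 h0 h1 ha hb (by linarith) n4 he he'
      fun x k3 k4 => ⟨n5 x k3, k4⟩, fun x hx => n5 x (Ge2.deep n2 n1 h0 h1 h2 ha hb n3 n4
        (unit_le he) hx ?_)⟩
    have s0 : (0 : ℝ) ≤ s := Nat.cast_nonneg s
    push_cast
    nlinarith [mul_le_mul_of_nonneg_right hj (show (0 : ℝ) ≤ s + 1 by linarith)]
  have bb : ∀ s : ℕ, (j + 40) * (s + 1) = j * (s + 1) + 40 * s + 40 := fun s => by ring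
  refine ⟨fun f s hf => ?_, fun y f f' s hf hf' k k' => ?_⟩
  · obtain ⟨e, he, -, p⟩ := key f s hf
    refine ⟨ray f e a b (j * (s + 1)), ?_, fun g hg => p g (by omega)⟩
    have := zd_ray ha hb f he (j * (s + 1))
    have := bb s
    omega
  · have r : ∀ f u, zd f y ≤ s →
        Rch (fun v => ¬ (v ∈ S₁ ∧ v ∈ S₂) ∧ zd v f ≤ j * (s + 1) + 13) f u →
        Rch (fun v => ¬ (v ∈ S₁ ∧ v ∈ S₂) ∧ zd v y ≤ (j + 40) * (s + 1)) f u := fun f u hf =>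
      rch_mono fun x hx => ⟨hx.1, by
        have := zd_tri x f y
        have := hx.2
        have := bb s
        omega⟩
    obtain ⟨e, he, p1, p2⟩ := key f s k
    obtain ⟨e', he', p3, -⟩ := key f' s k'
    refine (r _ _ hf p1).trans ((r _ _ hf' p3).trans (rch_box (D := 2 * s + 24) ?_ ?_)).symm
    · refine fun x hx => ⟨p2 x hx, ?_⟩
      have := zd_ray ha hb f he (j * (s + 1))
      have := zd_tri x (ray f e a b (j * (s + 1))) f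
      have := zd_tri x f y
      have := bb s
      omega
    · have := zd_ray_ray a b f f' he he' (j * (s + 1))
      have := zd_tri f' y f
      rw [zd_comm y] at this
      omega

theorem epi_compl {S : Set (ℤ × ℤ)} {ν : ℂ} (h : Epi S ν κ) : Epi Sᶜ (-ν) κ := fun u hu v hv =>
  epi_out h hu (by simpa [len, ht] using hv)

theorem tip_compl (h : TipS S₁ S₂ ν₁ ν₂ α κ) : TipS S₁ᶜ S₂ᶜ (-ν₁) (-ν₂) α κ :=
  ⟨by rw [norm_neg, h.n₁], by rw [norm_neg, h.n₂], by rw [← neg_add, norm_neg]; exact h.add,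
    by rw [← neg_sub', norm_neg]; exact h.sub, epi_compl h.e₁, epi_compl h.e₂,
    ⟨h.w₁.2, h.w₁.1.imp fun _ o => ⟨not_not.2 o.1, o.2⟩⟩,
    ⟨h.w₂.2, h.w₂.1.imp fun _ o => ⟨not_not.2 o.1, o.2⟩⟩⟩

end RgZ

open RgZ

theorem rghZ : RghZ := by
  intro α hα
  obtain ⟨t₁, κ₁, p1, hC⟩ := tipConn α hα
  obtain ⟨j, hj⟩ : ∃ j : ℕ, 328 ≤ α * j :=
    ⟨⌈328 / α⌉₊, by rw [mul_comm]; exact (div_le_iff₀ hα).1 (Nat.le_ceil _)⟩
  refine ⟨2 * t₁ + 4, min κ₁ (α / 16), by positivity, fun t ht => ?_⟩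
  obtain ⟨N₁, hC⟩ := hC (t / 2) (by omega)
  refine ⟨max N₁ (j + 40) * (2 * t + 1) + 2 * t + 1, fun κ h0 hκ un S₁ S₂ ν₁ ν₂ h => ?_⟩
  have b : ∀ N ≤ max N₁ (j + 40),
      N * (2 * t + 1) + 2 * t + 1 ≤ max N₁ (j + 40) * (2 * t + 1) + 2 * t + 1 := fun N hN => by
    have := Nat.mul_le_mul_right (2 * t + 1) hN
    omega
  have sq : ∀ c v, zd v c ≤ t → v ∉ DugU un S₁ S₂ c t := fun c v k o => absurd o.2 (not_lt.2 k)
  have nr : ∀ c v, 2 * zd c 0 ≤ t → zd v 0 ≤ t / 2 → zd v c ≤ t := fun c v k k' => by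
    have := zd_tri v 0 c
    rw [zd_comm 0] at this
    omega
  cases un
  · obtain ⟨⟨v, v1, v2, v3⟩, -⟩ := hC κ h0 (hκ.trans (min_le_left _ _)) _ _ _ _ (tip_compl h)
    obtain ⟨f, f1, f2⟩ := h.w₁.2
    refine ⟨⟨f, by omega, fun o => f1 o.1⟩, ⟨v, by omega, not_not.1 v2, not_not.1 v3⟩,
      fun c hc => (gd_and h hα h0 (hκ.trans (min_le_right _ _)) hj).square (c := c) (p := f)
        (b _ (le_max_right _ _)) (fun v k o => k o.1) (sq c) (fun v k => ?_) (fun o => f1 o.1)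
        (nr c f hc (by omega))⟩
    by_contra o
    rw [not_or, not_not, not_le] at o
    exact k o
  · obtain ⟨⟨v, v1, v2, v3⟩, hG⟩ := hC κ h0 (hκ.trans (min_le_left _ _)) _ _ _ _ h
    obtain ⟨f, f1, f2⟩ := h.w₁.1
    refine ⟨⟨v, by omega, fun o => o.elim v2 v3⟩, ⟨f, by omega, Or.inl f1⟩,
      fun c hc => Gd.square (O' := fun v => v ∉ Dug S₁ S₂ (t / 2)) (c := c) (p := 0) hG
        (b _ (le_max_left _ _)) (fun v k o => k ⟨o.1, ?_⟩) (sq c) (fun v k => ?_)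
        (fun o => by simpa [zd] using o.2) (nr c 0 hc (by simp [zd]))⟩
    · by_contra o'
      exact sq c v (nr c v hc (not_lt.1 o')) o
    · by_contra o
      rw [not_or, not_not, not_le] at o
      exact k ⟨o.1.1, o.2⟩

end Vale.Agent.P144Z
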